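import Mathlib.Topology.Algebra.InfiniteSum.Real
import Mathlib.Topology.Algebra.InfiniteSum.Order
import Mathlib.Analysis.MeanInequalities
import Mathlib.Algebra.Order.Chebyshev
import Mathlib.Algebra.Order.Floor.Semifield
import Mathlib.LinearAlgebra.Matrix.Trace
import Mathlib.Tactic

/-!
# First differences of a convolution are controlled by the multiscale energies
-/

namespace Vale.Agent.P141.PL.H103

open Finset

/-- `d` is constant on the dyadic blocks of length `2 ^ r` -/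
def Blk (r : ℕ) (d : ℤ → ℝ) : Prop := ∃ d' : ℤ → ℝ, ∀ n, d n = d' (n / 2 ^ r)

theorem Blk.mono {r s : ℕ} (h : s ≤ r) {d : ℤ → ℝ} (hd : Blk r d) : Blk s d := by
  obtain ⟨d', hd'⟩ := hd
  refine ⟨fun n => d' (n / 2 ^ (r - s)), fun n => ?_⟩
  have h2 : (2 : ℤ) ^ r = 2 ^ s * 2 ^ (r - s) := by rw [← pow_add]; congr 1; omega
  simp only [hd', h2]
  rw [Int.ediv_ediv_of_nonneg (by positivity)]

theorem Blk.sub {r : ℕ} {d e : ℤ → ℝ} (hd : Blk r d) (he : Blk r e) :
    Blk r (fun n => d n - e n) := by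
  obtain ⟨d', hd'⟩ := hd
  obtain ⟨e', he'⟩ := he
  exact ⟨fun n => d' n - e' n, fun n => by simp only [hd', he']⟩

/-- finite support -/
def FS (f : ℤ → ℝ) : Prop := (Function.support f).Finite

theorem FS.summable {f : ℤ → ℝ} (h : FS f) : Summable f := summable_of_hasFiniteSupport h

theorem FS.mono {f g : ℤ → ℝ} (h : FS f) (hg : ∀ n, f n = 0 → g n = 0) : FS g :=
  Set.Finite.subset h fun n hn h0 => hn (hg n h0)

theorem FS.sq {f : ℤ → ℝ} (h : FS f) : FS (fun n => f n ^ 2) :=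
  h.mono fun n hn => by simp [hn]

theorem FS.sub {f g : ℤ → ℝ} (hf : FS f) (hg : FS g) : FS (fun n => f n - g n) := by
  refine Set.Finite.subset (Set.Finite.union hf hg) fun n hn => ?_
  by_contra hc
  rw [Set.mem_union, not_or, Function.notMem_support, Function.notMem_support] at hc
  exact hn (by simp [hc.1, hc.2])

theorem FS.add {f g : ℤ → ℝ} (hf : FS f) (hg : FS g) : FS (fun n => f n + g n) := by
  refine Set.Finite.subset (Set.Finite.union hf hg) fun n hn => ?_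
  by_contra hc
  rw [Set.mem_union, not_or, Function.notMem_support, Function.notMem_support] at hc
  exact hn (by simp [hc.1, hc.2])

theorem FS.mul_left {f : ℤ → ℝ} (hf : FS f) (g : ℤ → ℝ) : FS (fun n => f n * g n) :=
  hf.mono fun n hn => by simp [hn]

theorem FS.comp_inj {f : ℤ → ℝ} (hf : FS f) {i : ℤ → ℤ} (hi : Function.Injective i) :
    FS (fun n => f (i n)) := by
  have : Function.support (fun n => f (i n)) = i ⁻¹' Function.support f := rfl
  rw [FS, this]
  exact Set.Finite.preimage hi.injOn hf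

/-- Cauchy-Schwarz for sums over `ℤ` -/
theorem cs_tsum {a b : ℤ → ℝ} (ha : FS a) (hb : Summable fun n => b n ^ 2) :
    (∑' n, a n * b n) ^ 2 ≤ (∑' n, a n ^ 2) * (∑' n, b n ^ 2) := by
  classical
  set T := ha.toFinset
  have hT : ∀ n ∉ T, a n = 0 := fun n hn => by
    by_contra h0
    exact hn (ha.mem_toFinset.2 h0)
  rw [tsum_eq_sum (s := T) (fun n hn => by rw [hT n hn, zero_mul]),
    tsum_eq_sum (s := T) (f := fun n => a n ^ 2) (fun n hn => by simp [hT n hn])]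
  refine (Finset.sum_mul_sq_le_sq_mul_sq T a b).trans ?_
  exact mul_le_mul_of_nonneg_left (hb.sum_le_tsum T fun n _ => sq_nonneg _)
    (Finset.sum_nonneg fun n _ => sq_nonneg _)

/-- the first difference of the convolution -/
noncomputable def BB (s : ℤ) (d e : ℤ → ℝ) : ℝ :=
  (∑' n, d n * e (s + 1 - n)) - ∑' n, d n * e (s - n)

theorem sub_inj' (s : ℤ) : Function.Injective fun n : ℤ => s - n := fun a b h => by
  simp only at h; omega

theorem BB_symm (s : ℤ) (d e : ℤ → ℝ) : BB s d e = BB s e d := by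
  have h : ∀ t : ℤ, ∑' n, d n * e (t - n) = ∑' n, e n * d (t - n) := by
    intro t
    have := (Equiv.subLeft t).tsum_eq (fun n => e n * d (t - n))
    rw [← this]
    refine tsum_congr fun n => ?_
    simp only [Equiv.subLeft_apply, sub_sub_cancel]
    ring
  rw [BB, BB, h, h]

theorem BB_eq {s : ℤ} {d e : ℤ → ℝ} (hd : FS d) :
    BB s d e = ∑' n, (d (n + 1) - d n) * e (s - n) := by
  have h1 : ∑' n, d n * e (s + 1 - n) = ∑' n, d (n + 1) * e (s - n) := by
    rw [← (Equiv.addRight (1 : ℤ)).tsum_eq (fun n => d n * e (s + 1 - n))]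
    refine tsum_congr fun n => ?_
    simp only [Equiv.coe_addRight]
    congr 2; ring
  have hd1 : FS (fun n => d (n + 1)) := hd.comp_inj (add_left_injective 1)
  rw [BB, h1, ← Summable.tsum_sub]
  · exact tsum_congr fun n => by ring
  · exact (hd1.mul_left _).summable
  · exact (hd.mul_left _).summable

/-- sum over blocks -/
theorem tsum_blk {r : ℕ} {d d' : ℤ → ℝ} (h : ∀ n, d n = d' (n / 2 ^ r)) (hd : FS d) :
    ∑' n, d n = 2 ^ r * ∑' n, d' n := by
  have hne : NeZero (2 ^ r : ℕ) := ⟨by positivity⟩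
  have hs := hd.summable
  have e := (Int.divModEquiv (2 ^ r)).symm.tsum_eq d
  have hs2 : Summable fun p => d ((Int.divModEquiv (2 ^ r)).symm p) :=
    (Int.divModEquiv (2 ^ r)).symm.summable_iff.2 hs
  rw [← e, hs2.tsum_prod]
  have key : ∀ (j : ℤ) (i : Fin (2 ^ r)), d ((Int.divModEquiv (2 ^ r)).symm (j, i)) = d' j := by
    intro j i
    rw [h]
    congr 1
    simp only [Int.divModEquiv, Equiv.coe_fn_symm_mk]
    have hi : ((i : ℕ) : ℤ) < 2 ^ r := by exact_mod_cast i.2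
    have h0 : (0 : ℤ) ≤ ((i : ℕ) : ℤ) := by positivity
    push_cast
    rw [Int.add_ediv_of_dvd_left (Dvd.intro_left j rfl), Int.mul_ediv_cancel _ (by positivity),
      Int.ediv_eq_zero_of_lt h0 hi, add_zero]
  simp only [key, tsum_fintype, Finset.sum_const, Finset.card_univ, Fintype.card_fin,
    nsmul_eq_mul, tsum_mul_left]
  push_cast
  rfl

theorem FS_blk {r : ℕ} {d d' : ℤ → ℝ} (h : ∀ n, d n = d' (n / 2 ^ r)) (hd : FS d) : FS d' := by
  have h1 : ∀ j, d' j = d (2 ^ r * j) := fun j => by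
    rw [h, Int.mul_ediv_cancel_left _ (by positivity)]
  have h2 : FS fun j => d (2 ^ r * j) := hd.comp_inj fun a b hab => by
    have : (2 : ℤ) ^ r ≠ 0 := by positivity
    exact mul_left_cancel₀ this hab
  exact h2.mono fun n hn => by rw [h1, hn]

/-- Core estimate. -/
theorem BB_sq_le {r r' : ℕ} (hr : r' ≤ r) {d e : ℤ → ℝ} (hd : Blk r d) (he : Blk r' e) (fd : FS d)
    (fe : FS e) (s : ℤ) :
    2 ^ r * 2 ^ r' * (BB s d e) ^ 2 ≤ 4 * (∑' n, d n ^ 2) * (∑' n, e n ^ 2) := by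
  obtain ⟨d', hd'⟩ := hd
  obtain ⟨e', he'⟩ := he
  have fd' := FS_blk hd' fd
  have fe' := FS_blk he' fe
  have sd : ∑' n, d n ^ 2 = 2 ^ r * ∑' n, d' n ^ 2 :=
    tsum_blk (d := fun n => d n ^ 2) (d' := fun n => d' n ^ 2) (fun n => by simp only [hd']) fd.sq
  have se : ∑' n, e n ^ 2 = 2 ^ r' * ∑' n, e' n ^ 2 :=
    tsum_blk (d := fun n => e n ^ 2) (d' := fun n => e' n ^ 2) (fun n => by simp only [he']) fe.sq
  obtain ⟨M, hM⟩ : ∃ M : ℤ, (2 : ℤ) ^ r = 2 ^ r' * M := ⟨2 ^ (r - r'), by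
    rw [← pow_add]; congr 1; omega⟩
  have hM0 : M ≠ 0 := by
    rintro rfl
    have : (2 : ℤ) ^ r ≠ 0 := by positivity
    simp at hM
  -- the reduced sum
  have hB : BB s d e = ∑' j, (d' j - d' (j - 1)) * e' ((s + 1) / 2 ^ r' - M * j) := by
    rw [BB_eq fd]
    have inj : Function.Injective fun j : ℤ => 2 ^ r * j - 1 := fun a b hab => by
      have h0 : (2 : ℤ) ^ r ≠ 0 := by positivity
      have hab' : (2 : ℤ) ^ r * a = 2 ^ r * b := by simpa using hab
      exact mul_left_cancel₀ h0 hab'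
    rw [← inj.tsum_eq]
    · refine tsum_congr fun j => ?_
      have q1 : (2 ^ r * j - 1 + 1 : ℤ) / 2 ^ r = j := by
        rw [sub_add_cancel, Int.mul_ediv_cancel_left _ (by positivity)]
      have q2 : (2 ^ r * j - 1 : ℤ) / 2 ^ r = j - 1 := by
        have : (2 ^ r * j - 1 : ℤ) = (2 ^ r - 1) + 2 ^ r * (j - 1) := by ring
        rw [this, Int.add_mul_ediv_left _ _ (by positivity), Int.ediv_eq_zero_of_lt, zero_add]
        · have : (1 : ℤ) ≤ 2 ^ r := one_le_pow₀ (by norm_num)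
          omega
        · omega
      have q3 : (s - (2 ^ r * j - 1)) / 2 ^ r' = (s + 1) / 2 ^ r' - M * j := by
        have : s - (2 ^ r * j - 1) = (s + 1) + 2 ^ r' * (-(M * j)) := by rw [hM]; ring
        rw [this, Int.add_mul_ediv_left _ _ (by positivity)]; ring
      rw [hd', hd', he', q1, q2, q3]
    · intro n hn
      by_contra hc
      apply hn
      have h1 : (n + 1) / 2 ^ r = n / 2 ^ r := by
        by_contra hne
        apply hc
        have hpos : (0 : ℤ) < 2 ^ r := by positivity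
        have a1 := Int.emod_add_mul_ediv n (2 ^ r)
        have a2 := Int.emod_add_mul_ediv (n + 1) (2 ^ r)
        have a3 := Int.emod_nonneg n hpos.ne'
        have a4 := Int.emod_lt_of_pos n hpos
        have a5 := Int.emod_nonneg (n + 1) hpos.ne'
        have a6 := Int.emod_lt_of_pos (n + 1) hpos
        refine ⟨(n + 1) / 2 ^ r, ?_⟩
        simp only
        have h5 : (n + 1) % 2 ^ r = 0 := by
          set q := n / 2 ^ r
          set q' := (n + 1) / 2 ^ r
          have : 2 ^ r * (q' - q) = n % 2 ^ r - (n + 1) % 2 ^ r + 1 := by linarith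
          have hq1 : q' - q < 2 := by
            by_contra hh
            have : (2 : ℤ) ^ r * 2 ≤ 2 ^ r * (q' - q) :=
              mul_le_mul_of_nonneg_left (by omega) hpos.le
            omega
          have hq2 : -1 < q' - q := by
            by_contra hh
            have : (2 : ℤ) ^ r * (q' - q) ≤ 2 ^ r * (-1) :=
              mul_le_mul_of_nonneg_left (by omega) hpos.le
            omega
          have hq : q' - q = 1 := by omega
          rw [hq, mul_one] at this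
          omega
        omega
      change (d (n + 1) - d n) * e (s - n) = 0
      rw [hd', hd', h1, sub_self, zero_mul]
  have hcs := cs_tsum (a := fun j => d' j - d' (j - 1))
    (b := fun j => e' ((s + 1) / 2 ^ r' - M * j))
    (fd'.sub (fd'.comp_inj (sub_left_injective)))
    (((fe'.comp_inj (i := fun j => (s + 1) / 2 ^ r' - M * j) (fun a b hab => by
      simp only [sub_right_inj] at hab
      exact mul_left_cancel₀ hM0 hab)).sq).summable)
  rw [← hB] at hcs
  have h1 : ∑' j, (d' j - d' (j - 1)) ^ 2 ≤ 4 * ∑' j, d' j ^ 2 := by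
    have hshift : ∑' j, d' (j - 1) ^ 2 = ∑' j, d' j ^ 2 :=
      (Equiv.subRight (1 : ℤ)).tsum_eq (fun j => d' j ^ 2)
    have f1 : Summable fun j => d' j ^ 2 := fd'.sq.summable
    have f2 : Summable fun j => d' (j - 1) ^ 2 :=
      (fd'.comp_inj (i := fun j => j - 1) (sub_left_injective)).sq.summable
    have h := Summable.tsum_le_tsum (f := fun j => (d' j - d' (j - 1)) ^ 2)
      (g := fun j => 2 * d' j ^ 2 + 2 * d' (j - 1) ^ 2)
      (fun j => by nlinarith [sq_nonneg (d' j + d' (j - 1))])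
      ((fd'.sub (fd'.comp_inj (sub_left_injective))).sq.summable)
      ((f1.mul_left 2).add (f2.mul_left 2))
    refine h.trans (le_of_eq ?_)
    rw [Summable.tsum_add (f1.mul_left 2) (f2.mul_left 2), tsum_mul_left, tsum_mul_left, hshift]
    ring
  have h2 : ∑' j, e' ((s + 1) / 2 ^ r' - M * j) ^ 2 ≤ ∑' j, e' j ^ 2 := by
    have inj : Function.Injective fun j : ℤ => (s + 1) / 2 ^ r' - M * j := fun a b hab => by
      simp only [sub_right_inj] at hab
      exact mul_left_cancel₀ hM0 hab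
    exact tsum_comp_le_tsum_of_inj fe'.sq.summable (fun j => sq_nonneg _) inj
  have h3 : (BB s d e) ^ 2 ≤ (4 * ∑' j, d' j ^ 2) * ∑' j, e' j ^ 2 :=
    hcs.trans (mul_le_mul h1 h2 (tsum_nonneg fun j => sq_nonneg _) (by
      have h0 : 0 ≤ ∑' j, d' j ^ 2 := tsum_nonneg fun j => sq_nonneg _
      linarith))
  rw [sd, se]
  calc 2 ^ r * 2 ^ r' * (BB s d e) ^ 2
      ≤ 2 ^ r * 2 ^ r' * ((4 * ∑' j, d' j ^ 2) * ∑' j, e' j ^ 2) :=
        mul_le_mul_of_nonneg_left h3 (by positivity)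
    _ = _ := by ring

/-- AM-GM form -/
theorem BB_abs_le {r r' : ℕ} {d e : ℤ → ℝ} (hd : Blk r d) (he : Blk r' e) (fd : FS d)
    (fe : FS e) (s : ℤ) :
    |BB s d e| ≤ (3 / 4) ^ r * (3 / 4) ^ r' * ((∑' n, d n ^ 2) + (∑' n, e n ^ 2)) := by
  have key : (2 : ℝ) ^ r * 2 ^ r' * (BB s d e) ^ 2 ≤ 4 * (∑' n, d n ^ 2) * (∑' n, e n ^ 2) := by
    rcases le_total r' r with h | h
    · exact BB_sq_le h hd he fd fe s
    · have := BB_sq_le h he hd fe fd s
      rw [BB_symm] at this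
      linarith
  set x := ∑' n, d n ^ 2
  set y := ∑' n, e n ^ 2
  have hx : 0 ≤ x := tsum_nonneg fun _ => sq_nonneg _
  have hy : 0 ≤ y := tsum_nonneg fun _ => sq_nonneg _
  have p1 : ∀ k : ℕ, (1 : ℝ) ≤ 2 ^ k * ((3 / 4) ^ k) ^ 2 := by
    intro k
    rw [← pow_mul, mul_comm k 2, pow_mul, ← mul_pow]
    exact one_le_pow₀ (by norm_num)
  apply abs_le_of_sq_le_sq
  · have q1 := p1 r
    have q2 := p1 r'
    have q3 : (1 : ℝ) ≤ (2 ^ r * ((3 / 4) ^ r) ^ 2) * (2 ^ r' * ((3 / 4) ^ r') ^ 2) := by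
      nlinarith
    have q4 : (BB s d e) ^ 2 ≤ ((2 ^ r * ((3 / 4) ^ r) ^ 2) * (2 ^ r' * ((3 / 4) ^ r') ^ 2))
        * (BB s d e) ^ 2 := le_mul_of_one_le_left (sq_nonneg _) q3
    have q5 : (0 : ℝ) ≤ ((3 / 4 : ℝ) ^ r) ^ 2 * ((3 / 4) ^ r') ^ 2 := by positivity
    have q6 := mul_le_mul_of_nonneg_left key q5
    calc (BB s d e) ^ 2 ≤ _ := q4
      _ = ((3 / 4 : ℝ) ^ r) ^ 2 * ((3 / 4) ^ r') ^ 2 * (2 ^ r * 2 ^ r' * (BB s d e) ^ 2) := by ring
      _ ≤ ((3 / 4 : ℝ) ^ r) ^ 2 * ((3 / 4) ^ r') ^ 2 * (4 * x * y) := q6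
      _ ≤ ((3 / 4 : ℝ) ^ r) ^ 2 * ((3 / 4) ^ r') ^ 2 * (x + y) ^ 2 := by
          refine mul_le_mul_of_nonneg_left ?_ q5
          nlinarith [sq_nonneg (x - y)]
      _ = _ := by ring
  · positivity

theorem BB_sub_left {s : ℤ} {d d' e : ℤ → ℝ} (hd : FS d) (hd' : FS d') :
    BB s (fun n => d n - d' n) e = BB s d e - BB s d' e := by
  have h : ∀ t : ℤ, ∑' n, (d n - d' n) * e (t - n)
      = ∑' n, d n * e (t - n) - ∑' n, d' n * e (t - n) := by
    intro t
    rw [← Summable.tsum_sub (hd.mul_left _).summable (hd'.mul_left _).summable]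
    exact tsum_congr fun n => by ring
  rw [BB, BB, BB, h, h]; ring

theorem BB_sub_right {s : ℤ} {d e e' : ℤ → ℝ} (he : FS e) (he' : FS e') :
    BB s d (fun n => e n - e' n) = BB s d e - BB s d e' := by
  rw [BB_symm, BB_sub_left he he', BB_symm, BB_symm s e']

/-- multiscale energy of a family -/
noncomputable def ME (R : ℕ) (f : ℕ → ℤ → ℝ) : ℝ :=
  ∑ r ∈ range R, (3 / 4) ^ r * ∑' n, (f r n - f (r + 1) n) ^ 2 + (3 / 4) ^ R * ∑' n, f R n ^ 2

theorem ME_nonneg (R : ℕ) (f : ℕ → ℤ → ℝ) : 0 ≤ ME R f :=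
  add_nonneg (sum_nonneg fun r _ => mul_nonneg (by positivity) (tsum_nonneg fun _ => sq_nonneg _))
    (mul_nonneg (by positivity) (tsum_nonneg fun _ => sq_nonneg _))

theorem geom_le (R : ℕ) : ∑ r ∈ range R, (3 / 4 : ℝ) ^ r + (3 / 4) ^ R ≤ 4 := by
  have h := geom_sum_eq (show (3 / 4 : ℝ) ≠ 1 by norm_num) R
  rw [h]
  have : (0 : ℝ) ≤ (3 / 4) ^ R := by positivity
  have e : ((3 / 4 : ℝ) ^ R - 1) / (3 / 4 - 1) = 4 - 4 * (3 / 4) ^ R := by ring
  rw [e]; linarith

/-- one function decomposed -/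
theorem BB_one (R : ℕ) {r' : ℕ} {f : ℕ → ℤ → ℝ} {e : ℤ → ℝ} (hf : ∀ r ≤ R, Blk r (f r))
    (ff : ∀ r ≤ R, FS (f r)) (he : Blk r' e) (fe : FS e) (s : ℤ) :
    |BB s (f 0) e| ≤ (3 / 4) ^ r' * (ME R f + 4 * ∑' n, e n ^ 2) := by
  set y := ∑' n, e n ^ 2
  have hy : 0 ≤ y := tsum_nonneg fun _ => sq_nonneg _
  have key : ∀ Q ≤ R, |BB s (f 0) e - BB s (f Q) e| ≤ (3 / 4) ^ r' *
      (∑ r ∈ range Q, (3 / 4) ^ r * ((∑' n, (f r n - f (r + 1) n) ^ 2) + y)) := by
    intro Q
    induction Q with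
    | zero => intro _; simp
    | succ Q ih =>
      intro hQ
      have h1 := ih (by omega)
      have fQ := ff Q (by omega)
      have fQ1 := ff (Q + 1) hQ
      have h2 := BB_abs_le ((hf Q (by omega)).sub ((hf (Q + 1) hQ).mono (Nat.le_succ Q))) he
        (fQ.sub fQ1) fe s
      rw [BB_sub_left fQ fQ1] at h2
      rw [sum_range_succ]
      have e1 : BB s (f 0) e - BB s (f (Q + 1)) e
          = (BB s (f 0) e - BB s (f Q) e) + (BB s (f Q) e - BB s (f (Q + 1)) e) := by ring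
      rw [e1]
      refine (abs_add_le _ _).trans ((add_le_add h1 h2).trans (le_of_eq ?_))
      ring
  have h1 := key R le_rfl
  have h2 := BB_abs_le (hf R le_rfl) he (ff R le_rfl) fe s
  have e1 : BB s (f 0) e = (BB s (f 0) e - BB s (f R) e) + BB s (f R) e := by ring
  rw [e1]
  refine (abs_add_le _ _).trans ((add_le_add h1 h2).trans ?_)
  have hg := geom_le R
  have hp : (0 : ℝ) ≤ (3 / 4) ^ r' := by positivity
  have e2 : ∑ r ∈ range R, (3 / 4 : ℝ) ^ r * ((∑' n, (f r n - f (r + 1) n) ^ 2) + y)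
      = ∑ r ∈ range R, (3 / 4 : ℝ) ^ r * (∑' n, (f r n - f (r + 1) n) ^ 2)
        + (∑ r ∈ range R, (3 / 4 : ℝ) ^ r) * y := by
    rw [Finset.sum_mul, ← Finset.sum_add_distrib]
    exact Finset.sum_congr rfl fun r _ => by ring
  rw [e2, ME]
  set A := ∑ r ∈ range R, (3 / 4 : ℝ) ^ r * (∑' n, (f r n - f (r + 1) n) ^ 2)
  set G := ∑ r ∈ range R, (3 / 4 : ℝ) ^ r
  set T := ∑' n, f R n ^ 2
  have : (3 / 4 : ℝ) ^ r' * (A + G * y) + (3 / 4) ^ R * (3 / 4) ^ r' * (T + y)
      = (3 / 4) ^ r' * (A + (3 / 4) ^ R * T + (G + (3 / 4) ^ R) * y) := by ring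
  rw [this]
  refine mul_le_mul_of_nonneg_left ?_ hp
  have := mul_le_mul_of_nonneg_right hg hy
  linarith

/-- **First difference lemma**, scalar form. -/
theorem first_diff (R : ℕ) {f g : ℕ → ℤ → ℝ} (hf : ∀ r ≤ R, Blk r (f r))
    (ff : ∀ r ≤ R, FS (f r)) (hg : ∀ r ≤ R, Blk r (g r)) (fg : ∀ r ≤ R, FS (g r)) (s : ℤ) :
    |BB s (f 0) (g 0)| ≤ 4 * (ME R f + ME R g) := by
  set x := ME R f
  have hx : 0 ≤ x := ME_nonneg R f
  have key : ∀ Q ≤ R, |BB s (f 0) (g 0) - BB s (f 0) (g Q)| ≤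
      (∑ r ∈ range Q, (3 / 4) ^ r * (x + 4 * ∑' n, (g r n - g (r + 1) n) ^ 2)) := by
    intro Q
    induction Q with
    | zero => intro _; simp
    | succ Q ih =>
      intro hQ
      have h1 := ih (by omega)
      have fQ := fg Q (by omega)
      have fQ1 := fg (Q + 1) hQ
      have h2 := BB_one R hf ff ((hg Q (by omega)).sub ((hg (Q + 1) hQ).mono (Nat.le_succ Q)))
        (fQ.sub fQ1) s
      rw [BB_sub_right fQ fQ1] at h2
      rw [sum_range_succ]
      have e1 : BB s (f 0) (g 0) - BB s (f 0) (g (Q + 1))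
          = (BB s (f 0) (g 0) - BB s (f 0) (g Q)) + (BB s (f 0) (g Q) - BB s (f 0) (g (Q + 1))) := by
        ring
      rw [e1]
      exact (abs_add_le _ _).trans (add_le_add h1 h2)
  have h1 := key R le_rfl
  have h2 := BB_one R hf ff (hg R le_rfl) (fg R le_rfl) s
  have e1 : BB s (f 0) (g 0) = (BB s (f 0) (g 0) - BB s (f 0) (g R)) + BB s (f 0) (g R) := by ring
  rw [e1]
  refine (abs_add_le _ _).trans ((add_le_add h1 h2).trans ?_)
  have hgm := geom_le R
  have e2 : ∑ r ∈ range R, (3 / 4 : ℝ) ^ r * (x + 4 * ∑' n, (g r n - g (r + 1) n) ^ 2)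
      = (∑ r ∈ range R, (3 / 4 : ℝ) ^ r) * x
        + 4 * ∑ r ∈ range R, (3 / 4 : ℝ) ^ r * (∑' n, (g r n - g (r + 1) n) ^ 2) := by
    rw [Finset.sum_mul, Finset.mul_sum, ← Finset.sum_add_distrib]
    exact Finset.sum_congr rfl fun r _ => by ring
  have e3 : ME R g = ∑ r ∈ range R, (3 / 4 : ℝ) ^ r * (∑' n, (g r n - g (r + 1) n) ^ 2)
      + (3 / 4) ^ R * ∑' n, g R n ^ 2 := rfl
  rw [e2, e3]
  set A := ∑ r ∈ range R, (3 / 4 : ℝ) ^ r * (∑' n, (g r n - g (r + 1) n) ^ 2)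
  set G := ∑ r ∈ range R, (3 / 4 : ℝ) ^ r
  set T := ∑' n, g R n ^ 2
  have := mul_le_mul_of_nonneg_right hgm hx
  linarith

/-! ### Matrix version -/

open Matrix

variable {ι : Type*} [Fintype ι]

/-- convolution of two matrix sequences -/
noncomputable def cv (f g : ℤ → Matrix ι ι ℝ) (s : ℤ) : ℝ := ∑' n, (f n * g (s - n)).trace

/-- multiscale energy of a family of matrix sequences -/
noncomputable def MM (R : ℕ) (f : ℕ → ℤ → Matrix ι ι ℝ) : ℝ :=
  ∑ r ∈ range R, (3 / 4) ^ r * ∑' n, ((f r n - f (r + 1) n) * (f r n - f (r + 1) n)).trace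
    + (3 / 4) ^ R * ∑' n, (f R n * f R n).trace

theorem trace_mul_eq (A B : Matrix ι ι ℝ) : (A * B).trace = ∑ i, ∑ j, A i j * B j i := by
  simp only [Matrix.trace, Matrix.diag, Matrix.mul_apply]

theorem trace_sq_eq {A : Matrix ι ι ℝ} (hA : Aᵀ = A) : (A * A).trace = ∑ i, ∑ j, A i j ^ 2 := by
  rw [trace_mul_eq]
  refine Finset.sum_congr rfl fun i _ => Finset.sum_congr rfl fun j _ => ?_
  have : A j i = A i j := by
    conv_rhs => rw [← hA, Matrix.transpose_apply]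
  rw [this]; ring

theorem tsum_sum2 {F : ℤ → ι → ι → ℝ} (h : ∀ i j, FS fun n => F n i j) :
    ∑' n, ∑ i, ∑ j, F n i j = ∑ i, ∑ j, ∑' n, F n i j := by
  rw [Summable.tsum_finsetSum (fun i _ => summable_sum fun j _ => (h i j).summable)]
  exact Finset.sum_congr rfl fun i _ =>
    Summable.tsum_finsetSum (fun j _ => (h i j).summable)

/-- finite support of a matrix sequence -/
def FSM (f : ℤ → Matrix ι ι ℝ) : Prop := ∃ T : Finset ℤ, ∀ n ∉ T, f n = 0

omit [Fintype ι] in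
theorem FSM.entry {f : ℤ → Matrix ι ι ℝ} (h : FSM f) (i j : ι) : FS fun n => f n i j := by
  obtain ⟨T, hT⟩ := h
  refine Set.Finite.subset T.finite_toSet fun n hn => ?_
  by_contra hc
  exact hn (by simp [hT n (by simpa using hc)])

theorem MM_eq (R : ℕ) {f : ℕ → ℤ → Matrix ι ι ℝ} (hs : ∀ r ≤ R, ∀ n, (f r n)ᵀ = f r n)
    (ff : ∀ r ≤ R, FSM (f r)) : MM R f = ∑ i, ∑ j, ME R (fun r n => f r n i j) := by
  have h1 : ∀ r < R, ∑' n, ((f r n - f (r + 1) n) * (f r n - f (r + 1) n)).trace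
      = ∑ i, ∑ j, ∑' n, (f r n i j - f (r + 1) n i j) ^ 2 := by
    intro r hr
    rw [← tsum_sum2]
    · refine tsum_congr fun n => ?_
      rw [trace_sq_eq (by rw [transpose_sub, hs r hr.le, hs (r + 1) hr])]
      rfl
    · intro i j
      exact (((ff r hr.le).entry i j).sub ((ff (r + 1) hr).entry i j)).sq
  have h2 : ∑' n, (f R n * f R n).trace = ∑ i, ∑ j, ∑' n, f R n i j ^ 2 := by
    rw [← tsum_sum2]
    · exact tsum_congr fun n => trace_sq_eq (hs R le_rfl n)
    · intro i j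
      exact ((ff R le_rfl).entry i j).sq
  simp only [MM, ME, Finset.sum_add_distrib, ← Finset.mul_sum]
  rw [h2]
  congr 1
  have h3 : ∀ i : ι, ∑ j, ∑ r ∈ range R, (3 / 4 : ℝ) ^ r * ∑' n, (f r n i j - f (r + 1) n i j) ^ 2
      = ∑ r ∈ range R, (3 / 4 : ℝ) ^ r * ∑ j, ∑' n, (f r n i j - f (r + 1) n i j) ^ 2 := by
    intro i
    rw [Finset.sum_comm]
    exact Finset.sum_congr rfl fun r _ => by rw [Finset.mul_sum]
  simp only [h3]
  rw [Finset.sum_comm]
  refine Finset.sum_congr rfl fun r hr => ?_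
  rw [h1 r (Finset.mem_range.1 hr), Finset.mul_sum]

/-- **First difference lemma**, matrix form: `f r`, `g r` are constant on the dyadic blocks of
length `2 ^ r`, symmetric and of finite support. -/
theorem first_diff_mat (R : ℕ) {f g : ℕ → ℤ → Matrix ι ι ℝ}
    (hf : ∀ r ≤ R, ∀ n, f r n = f r (2 ^ r * (n / 2 ^ r)))
    (hg : ∀ r ≤ R, ∀ n, g r n = g r (2 ^ r * (n / 2 ^ r)))
    (sf : ∀ r ≤ R, ∀ n, (f r n)ᵀ = f r n) (sg : ∀ r ≤ R, ∀ n, (g r n)ᵀ = g r n)
    (ff : ∀ r ≤ R, FSM (f r)) (fg : ∀ r ≤ R, FSM (g r)) (s : ℤ) :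
    |cv (f 0) (g 0) (s + 1) - cv (f 0) (g 0) s| ≤ 4 * (MM R f + MM R g) := by
  have bf : ∀ i j, ∀ r ≤ R, Blk r (fun n => f r n i j) := fun i j r hr =>
    ⟨fun m => f r (2 ^ r * m) i j, fun n => congrFun (congrFun (hf r hr n) i) j⟩
  have bg : ∀ i j, ∀ r ≤ R, Blk r (fun n => g r n i j) := fun i j r hr =>
    ⟨fun m => g r (2 ^ r * m) i j, fun n => congrFun (congrFun (hg r hr n) i) j⟩
  have hc : ∀ t, cv (f 0) (g 0) t = ∑ i, ∑ j, ∑' n, f 0 n i j * g 0 (t - n) j i := by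
    intro t
    rw [← tsum_sum2 fun i j => ((ff 0 (Nat.zero_le R)).entry i j).mul_left _]
    exact tsum_congr fun n => trace_mul_eq _ _
  have e1 : cv (f 0) (g 0) (s + 1) - cv (f 0) (g 0) s
      = ∑ i, ∑ j, BB s (fun n => f 0 n i j) (fun n => g 0 n j i) := by
    rw [hc, hc, ← Finset.sum_sub_distrib]
    refine Finset.sum_congr rfl fun i _ => ?_
    rw [← Finset.sum_sub_distrib]
    rfl
  rw [e1, MM_eq R sf ff, MM_eq R sg fg]
  have e2 : ∑ i, ∑ j, ME R (fun r n => g r n i j) = ∑ i, ∑ j, ME R (fun r n => g r n j i) :=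
    Finset.sum_comm
  rw [e2, ← Finset.sum_add_distrib, Finset.mul_sum]
  refine (Finset.abs_sum_le_sum_abs _ _).trans (Finset.sum_le_sum fun i _ => ?_)
  rw [← Finset.sum_add_distrib, Finset.mul_sum]
  refine (Finset.abs_sum_le_sum_abs _ _).trans (Finset.sum_le_sum fun j _ => ?_)
  exact first_diff R (f := fun r n => f r n i j) (g := fun r n => g r n j i) (bf i j)
    (fun r hr => (ff r hr).entry i j) (bg j i) (fun r hr => (fg r hr).entry j i) s

end Vale.Agent.P141.PL.H103
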