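import Vale.Agent.P075.Bdl.B1

/-!
# Two-sided tangents for the product functional `tr φ(AᵀA) φ(BᵀB)`
-/

set_option linter.unusedSectionVars false

namespace Vale.Agent.P141.PL.H103

open Matrix Vale.Agent.P075

variable {m n p q : Type*} [Fintype m] [DecidableEq m] [Fintype n] [DecidableEq n]
  [Fintype p] [DecidableEq p] [Fintype q] [DecidableEq q]

omit [DecidableEq m] [DecidableEq n] in
theorem gram_psd (A : Matrix m n ℝ) : (Aᵀ * A).PosSemidef := by
  have := Matrix.posSemidef_conjTranspose_mul_self A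
  rwa [conjTranspose_eq_transpose_of_trivial] at this

omit [DecidableEq m] [DecidableEq n] in
theorem gram_psd' (A : Matrix m n ℝ) : (A * Aᵀ).PosSemidef := by
  have := Matrix.posSemidef_self_mul_conjTranspose A
  rwa [conjTranspose_eq_transpose_of_trivial] at this

/-- push-through identity, rectangular (helper804) -/
theorem push_rect (A : Matrix m n ℝ) : A * res (Aᵀ * A) = res (A * Aᵀ) * A := by
  have h1 := one_add_mul_res (gram_psd A)
  have h2 := res_mul_one_add (gram_psd' A)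
  have h3 : (1 + A * Aᵀ) * A = A * (1 + Aᵀ * A) := by
    rw [Matrix.add_mul, Matrix.mul_add, Matrix.one_mul, Matrix.mul_one, Matrix.mul_assoc]
  calc A * res (Aᵀ * A) = (res (A * Aᵀ) * (1 + A * Aᵀ)) * A * res (Aᵀ * A) := by
        rw [h2, Matrix.one_mul]
    _ = res (A * Aᵀ) * ((1 + A * Aᵀ) * A) * res (Aᵀ * A) := by
        simp only [Matrix.mul_assoc]
    _ = res (A * Aᵀ) * A * ((1 + Aᵀ * A) * res (Aᵀ * A)) := by
        rw [h3]; simp only [Matrix.mul_assoc]
    _ = res (A * Aᵀ) * A := by rw [h1, Matrix.mul_one]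

/-- `A (1 + AᵀA)⁻¹ Aᵀ = φ(A Aᵀ)` (helper804) -/
theorem phi_row (A : Matrix m n ℝ) : A * res (Aᵀ * A) * Aᵀ = phi (A * Aᵀ) := by
  rw [push_rect, Matrix.mul_assoc, res_mul (gram_psd' A), phi]

/-- squared Hilbert-Schmidt norm -/
noncomputable def hs (M : Matrix m n ℝ) : ℝ := (Mᵀ * M).trace

theorem hs_nonneg (M : Matrix m n ℝ) : 0 ≤ hs M := (psd_transpose_mul M).trace_nonneg

theorem hs_eq (M : Matrix m n ℝ) : hs M = (M * Mᵀ).trace := trace_mul_comm _ _

theorem hs_transpose (M : Matrix m n ℝ) : hs Mᵀ = hs M := by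
  rw [hs, transpose_transpose, hs_eq]

theorem hs_neg (M : Matrix m n ℝ) : hs (-M) = hs M := by
  rw [hs, hs, transpose_neg, Matrix.neg_mul, Matrix.mul_neg, neg_neg]

theorem hs_smul (c : ℝ) (M : Matrix m n ℝ) : hs (c • M) = c ^ 2 * hs M := by
  rw [hs, hs, transpose_smul, Matrix.smul_mul, Matrix.mul_smul, smul_smul, trace_smul,
    smul_eq_mul, sq]

theorem tr_comm' (M N : Matrix m n ℝ) : (Nᵀ * M).trace = (Mᵀ * N).trace := by
  rw [← trace_transpose, transpose_mul, transpose_transpose]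

theorem hs_add (M N : Matrix m n ℝ) : hs (M + N) = hs M + 2 * (Mᵀ * N).trace + hs N := by
  rw [hs, transpose_add, Matrix.add_mul, Matrix.mul_add, Matrix.mul_add, trace_add, trace_add,
    trace_add, tr_comm' M N, hs, hs]
  ring

theorem hs_add_le (M N : Matrix m n ℝ) : hs (M + N) ≤ 2 * hs M + 2 * hs N := by
  have h1 := hs_add M N
  have h2 := hs_add M (-N)
  have h3 := hs_nonneg (M + -N)
  rw [hs_neg, Matrix.mul_neg, trace_neg] at h2
  linarith

theorem tr_abs_le (M N : Matrix m n ℝ) : |(Mᵀ * N).trace| ≤ (1 / 2) * (hs M + hs N) := by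
  have h1 := hs_add M N
  have h2 := hs_add M (-N)
  have h3 := hs_nonneg (M + -N)
  have h4 := hs_nonneg (M + N)
  rw [hs_neg, Matrix.mul_neg, trace_neg] at h2
  rw [abs_le]
  constructor <;> linarith

/-- contraction -/
def Con (U : Matrix m n ℝ) : Prop := (1 - Uᵀ * U).PosSemidef ∧ (1 - U * Uᵀ).PosSemidef

theorem Con.tr {U : Matrix m n ℝ} (h : Con U) : Con Uᵀ :=
  ⟨by rw [transpose_transpose]; exact h.2, by rw [transpose_transpose]; exact h.1⟩

theorem Con.hs_left {U : Matrix m n ℝ} (h : Con U) (M : Matrix n p ℝ) : hs (U * M) ≤ hs M := by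
  have e : hs (U * M) = ((Uᵀ * U) * (M * Mᵀ)).trace := by
    rw [hs, transpose_mul, show Mᵀ * Uᵀ * (U * M) = Mᵀ * (Uᵀ * U * M) by
      simp only [Matrix.mul_assoc], trace_mul_comm]
    simp only [Matrix.mul_assoc]
  rw [e, hs_eq]
  have := trace_mul_le_left (psd_mul_transpose M) h.1
  rwa [Matrix.one_mul] at this

theorem Con.hs_right {V : Matrix n p ℝ} (h : Con V) (M : Matrix m n ℝ) : hs (M * V) ≤ hs M := by
  rw [← hs_transpose (M * V), transpose_mul, ← hs_transpose M]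
  exact h.tr.hs_left _

theorem con_of_psd {W : Matrix n n ℝ} (h0 : W.PosSemidef) (h1 : (1 - W).PosSemidef) : Con W := by
  have hs' := psd_isSymm h0
  have key : (1 - W * W).PosSemidef := by
    obtain ⟨B, hB, hBW⟩ := exists_sq h0
    have hBs := psd_isSymm hB
    have e : 1 - W * W = (1 - W) + B * (1 - W) * B := by
      have : B * (1 - W) * B = W - W * W := by
        rw [← hBW]; noncomm_ring
      rw [this]; abel
    rw [e]
    exact h1.add (psd_conj_symm h1 hBs)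
  exact ⟨by rwa [hs'], by rwa [hs']⟩

theorem con_res {X : Matrix n n ℝ} (hX : X.PosSemidef) : Con (res X) :=
  con_of_psd (res_psd hX) (one_sub_res_psd hX)

theorem con_phi {X : Matrix n n ℝ} (hX : X.PosSemidef) : Con (phi X) :=
  con_of_psd (phi_psd hX) (one_sub_phi_psd hX)

theorem con_AS (A : Matrix m n ℝ) : Con (A * res (Aᵀ * A)) := by
  constructor
  · have hX := gram_psd A
    have e : (A * res (Aᵀ * A))ᵀ * (A * res (Aᵀ * A))
        = res (Aᵀ * A) - res (Aᵀ * A) * res (Aᵀ * A) := by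
      rw [transpose_mul, res_symm hX, res_sub_sq hX]
      simp only [Matrix.mul_assoc]
    rw [e]
    have e2 : 1 - (res (Aᵀ * A) - res (Aᵀ * A) * res (Aᵀ * A))
        = (1 - res (Aᵀ * A)) + res (Aᵀ * A) * res (Aᵀ * A) := by abel
    rw [e2]
    exact (one_sub_res_psd hX).add (psd_sq (res_symm hX))
  · have hX := gram_psd' A
    have e : (A * res (Aᵀ * A)) * (A * res (Aᵀ * A))ᵀ
        = res (A * Aᵀ) - res (A * Aᵀ) * res (A * Aᵀ) := by
      rw [push_rect, transpose_mul, res_symm hX, res_sub_sq hX]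
      simp only [Matrix.mul_assoc]
    rw [e]
    have e2 : 1 - (res (A * Aᵀ) - res (A * Aᵀ) * res (A * Aᵀ))
        = (1 - res (A * Aᵀ)) + res (A * Aᵀ) * res (A * Aᵀ) := by abel
    rw [e2]
    exact (one_sub_res_psd hX).add (psd_sq (res_symm hX))

theorem con_SA (A : Matrix m n ℝ) : Con (res (Aᵀ * A) * Aᵀ) := by
  have h := (con_AS A).tr
  rwa [transpose_mul, res_symm (gram_psd A)] at h

/-- difference of resolvents -/
theorem res_diff (A A' : Matrix m n ℝ) :
    res ((A + A')ᵀ * (A + A')) - res (Aᵀ * A)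
      = -(res ((A + A')ᵀ * (A + A')) * (A + A')ᵀ * A' * res (Aᵀ * A))
        - res ((A + A')ᵀ * (A + A')) * A'ᵀ * (A * res (Aᵀ * A)) := by
  have hX := gram_psd A
  have hX' := gram_psd (A + A')
  set S0 := res (Aᵀ * A) with hS0
  set S1 := res ((A + A')ᵀ * (A + A')) with hS1
  have h1 : S1 * (1 + (A + A')ᵀ * (A + A')) = 1 := res_mul_one_add hX'
  have h0 : (1 + Aᵀ * A) * S0 = 1 := one_add_mul_res hX
  have e : S1 - S0 = S1 * ((1 + Aᵀ * A) * S0) - (S1 * (1 + (A + A')ᵀ * (A + A'))) * S0 := by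
    rw [h1, h0, Matrix.mul_one, Matrix.one_mul]
  have e2 : (A + A')ᵀ * (A + A') = Aᵀ * A + (A + A')ᵀ * A' + A'ᵀ * A := by
    rw [transpose_add]
    simp only [Matrix.add_mul, Matrix.mul_add]
    abel
  rw [e, e2]
  simp only [Matrix.mul_add, Matrix.add_mul, Matrix.mul_assoc, Matrix.mul_one, Matrix.one_mul]
  abel

theorem hs_res_diff (A A' : Matrix m n ℝ) :
    hs (res ((A + A')ᵀ * (A + A')) - res (Aᵀ * A)) ≤ 4 * hs A' := by
  have hX := gram_psd A
  have hX' := gram_psd (A + A')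
  rw [res_diff, sub_eq_add_neg]
  refine (hs_add_le _ _).trans ?_
  rw [hs_neg, hs_neg]
  have h1 : hs (res ((A + A')ᵀ * (A + A')) * (A + A')ᵀ * A' * res (Aᵀ * A)) ≤ hs A' :=
    ((con_res hX).hs_right _).trans ((con_SA (A + A')).hs_left _)
  have h2 : hs (res ((A + A')ᵀ * (A + A')) * A'ᵀ * (A * res (Aᵀ * A))) ≤ hs A' := by
    refine ((con_AS A).hs_right _).trans (((con_res hX').hs_left _).trans ?_)
    rw [hs_transpose]
  linarith

theorem hs_res_diff_mul (A A' : Matrix m n ℝ) :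
    hs ((res ((A + A')ᵀ * (A + A')) - res (Aᵀ * A)) * Aᵀ) ≤ 4 * hs A' := by
  have hX := gram_psd A
  have hX' := gram_psd (A + A')
  rw [res_diff, Matrix.sub_mul, sub_eq_add_neg]
  refine (hs_add_le _ _).trans ?_
  rw [Matrix.neg_mul, hs_neg, hs_neg]
  have h1 : hs (res ((A + A')ᵀ * (A + A')) * (A + A')ᵀ * A' * res (Aᵀ * A) * Aᵀ) ≤ hs A' := by
    have e : res ((A + A')ᵀ * (A + A')) * (A + A')ᵀ * A' * res (Aᵀ * A) * Aᵀ
        = (res ((A + A')ᵀ * (A + A')) * (A + A')ᵀ * A') * (res (Aᵀ * A) * Aᵀ) := by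
      simp only [Matrix.mul_assoc]
    rw [e]
    exact ((con_SA A).hs_right _).trans ((con_SA (A + A')).hs_left _)
  have h2 : hs (res ((A + A')ᵀ * (A + A')) * A'ᵀ * (A * res (Aᵀ * A)) * Aᵀ) ≤ hs A' := by
    have e : res ((A + A')ᵀ * (A + A')) * A'ᵀ * (A * res (Aᵀ * A)) * Aᵀ
        = (res ((A + A')ᵀ * (A + A')) * A'ᵀ) * phi (A * Aᵀ) := by
      rw [← phi_row]; simp only [Matrix.mul_assoc]
    rw [e]
    refine ((con_phi (gram_psd' A)).hs_right _).trans (((con_res hX').hs_left _).trans ?_)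
    rw [hs_transpose]
  linarith

/-- first order part of the resolvent -/
noncomputable def dR (A A' : Matrix m n ℝ) : Matrix n n ℝ :=
  res (Aᵀ * A) * (Aᵀ * A' + A'ᵀ * A) * res (Aᵀ * A)

theorem dR_add (A A' A'' : Matrix m n ℝ) : dR A (A' + A'') = dR A A' + dR A A'' := by
  simp only [dR, transpose_add, Matrix.mul_add, Matrix.add_mul]
  abel

theorem dR_smul (c : ℝ) (A A' : Matrix m n ℝ) : dR A (c • A') = c • dR A A' := by
  simp only [dR, transpose_smul, Matrix.mul_smul, Matrix.smul_mul, ← smul_add]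

/-- second order remainder -/
theorem res_rem (A A' : Matrix m n ℝ) :
    res ((A + A')ᵀ * (A + A')) - res (Aᵀ * A) + dR A A'
      = -(res ((A + A')ᵀ * (A + A')) * A'ᵀ * (A' * res (Aᵀ * A)))
        - (res ((A + A')ᵀ * (A + A')) - res (Aᵀ * A)) * Aᵀ * (A' * res (Aᵀ * A))
        - (res ((A + A')ᵀ * (A + A')) - res (Aᵀ * A)) * (A'ᵀ * (A * res (Aᵀ * A))) := by
  have h := res_diff A A'
  set S0 := res (Aᵀ * A) with hS0
  set S1 := res ((A + A')ᵀ * (A + A')) with hS1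
  have e : S1 - S0 + dR A A' = (S1 - S0) + dR A A' := rfl
  rw [e]
  conv_lhs => rw [h]
  rw [dR, ← hS0, transpose_add]
  simp only [Matrix.mul_add, Matrix.add_mul, Matrix.sub_mul, Matrix.mul_assoc]
  abel

theorem rem_abs_le (A A' : Matrix m n ℝ) {W : Matrix n n ℝ} (hW : Con W) :
    |((res ((A + A')ᵀ * (A + A')) - res (Aᵀ * A) + dR A A') * W).trace| ≤ 6 * hs A' := by
  have hX := gram_psd A
  have hX' := gram_psd (A + A')
  have k1 := hs_res_diff A A'
  have k2 := hs_res_diff_mul A A'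
  rw [res_rem]
  set S0 := res (Aᵀ * A) with hS0
  set S1 := res ((A + A')ᵀ * (A + A')) with hS1
  have c0 : Con S0 := con_res hX
  have c1 : Con S1 := con_res hX'
  have s1 : S1ᵀ = S1 := res_symm hX'
  have s0 : S0ᵀ = S0 := res_symm hX
  rw [Matrix.sub_mul, Matrix.sub_mul, Matrix.neg_mul, trace_sub, trace_sub, trace_neg]
  have t1 : |(S1 * A'ᵀ * (A' * S0) * W).trace| ≤ hs A' := by
    have e : (S1 * A'ᵀ * (A' * S0) * W) = (A' * S1)ᵀ * (A' * S0 * W) := by
      rw [transpose_mul, s1]; simp only [Matrix.mul_assoc]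
    rw [e]
    have h := tr_abs_le (A' * S1) (A' * S0 * W)
    have h1 := c1.hs_right A'
    have h2 := (hW.hs_right (A' * S0)).trans (c0.hs_right A')
    linarith
  have t2 : |((S1 - S0) * Aᵀ * (A' * S0) * W).trace| ≤ (5 / 2) * hs A' := by
    have e : (S1 - S0) * Aᵀ * (A' * S0) * W = (((S1 - S0) * Aᵀ)ᵀ)ᵀ * (A' * S0 * W) := by
      rw [transpose_transpose]; simp only [Matrix.mul_assoc]
    rw [e]
    have h := tr_abs_le (((S1 - S0) * Aᵀ)ᵀ) (A' * S0 * W)
    rw [hs_transpose] at h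
    have h2 := (hW.hs_right (A' * S0)).trans (c0.hs_right A')
    linarith
  have t3 : |((S1 - S0) * (A'ᵀ * (A * S0)) * W).trace| ≤ (5 / 2) * hs A' := by
    have e : (S1 - S0) * (A'ᵀ * (A * S0)) * W = ((S1 - S0)ᵀ)ᵀ * (A'ᵀ * (A * S0) * W) := by
      rw [transpose_transpose]; simp only [Matrix.mul_assoc]
    rw [e]
    have h := tr_abs_le ((S1 - S0)ᵀ) (A'ᵀ * (A * S0) * W)
    rw [hs_transpose] at h
    have h2 := (hW.hs_right (A'ᵀ * (A * S0))).trans ((con_AS A).hs_right A'ᵀ)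
    rw [hs_transpose] at h2
    linarith
  rw [abs_le] at *
  constructor <;> linarith [t1.1, t1.2, t2.1, t2.2, t3.1, t3.2]

/-- the product functional -/
noncomputable def PF (A : Matrix m n ℝ) (B : Matrix p n ℝ) : ℝ :=
  (phi (Aᵀ * A) * phi (Bᵀ * B)).trace

/-- its linear part -/
noncomputable def dPF (A : Matrix m n ℝ) (B : Matrix p n ℝ) (A' : Matrix m n ℝ)
    (B' : Matrix p n ℝ) : ℝ :=
  (dR A A' * phi (Bᵀ * B)).trace + (phi (Aᵀ * A) * dR B B').trace

theorem dPF_smul (c : ℝ) (A : Matrix m n ℝ) (B : Matrix p n ℝ) (A' : Matrix m n ℝ)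
    (B' : Matrix p n ℝ) : dPF A B (c • A') (c • B') = c * dPF A B A' B' := by
  rw [dPF, dPF, dR_smul, dR_smul, Matrix.smul_mul, Matrix.mul_smul, trace_smul, trace_smul,
    smul_eq_mul, smul_eq_mul]
  ring

theorem dPF_add (A : Matrix m n ℝ) (B : Matrix p n ℝ) (A' A'' : Matrix m n ℝ)
    (B' B'' : Matrix p n ℝ) :
    dPF A B (A' + A'') (B' + B'') = dPF A B A' B' + dPF A B A'' B'' := by
  rw [dPF, dPF, dPF, dR_add, dR_add, Matrix.add_mul, Matrix.mul_add, trace_add, trace_add]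
  ring

theorem PF_nonneg (A : Matrix m n ℝ) (B : Matrix p n ℝ) : 0 ≤ PF A B :=
  trace_mul_nonneg (phi_psd (gram_psd A)) (phi_psd (gram_psd B))

/-- **Two-sided tangent of the product functional.** -/
theorem PF_tangent (A : Matrix m n ℝ) (B : Matrix p n ℝ) (A' : Matrix m n ℝ)
    (B' : Matrix p n ℝ) :
    |PF (A + A') (B + B') - PF A B - dPF A B A' B'| ≤ 8 * (hs A' + hs B') := by
  have r1 := rem_abs_le A A' (con_phi (gram_psd B))
  have r2 := rem_abs_le B B' (con_phi (gram_psd A))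
  have k1 := hs_res_diff A A'
  have k2 := hs_res_diff B B'
  have sS : (res ((A + A')ᵀ * (A + A')) - res (Aᵀ * A))ᵀ
      = res ((A + A')ᵀ * (A + A')) - res (Aᵀ * A) := by
    rw [transpose_sub, res_symm (gram_psd _), res_symm (gram_psd _)]
  have r3 := tr_abs_le (res ((A + A')ᵀ * (A + A')) - res (Aᵀ * A))
    (res ((B + B')ᵀ * (B + B')) - res (Bᵀ * B))
  rw [sS] at r3
  have e : PF (A + A') (B + B') - PF A B - dPF A B A' B'
      = -((res ((A + A')ᵀ * (A + A')) - res (Aᵀ * A) + dR A A') * phi (Bᵀ * B)).trace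
        - ((res ((B + B')ᵀ * (B + B')) - res (Bᵀ * B) + dR B B') * phi (Aᵀ * A)).trace
        + ((res ((A + A')ᵀ * (A + A')) - res (Aᵀ * A))
            * (res ((B + B')ᵀ * (B + B')) - res (Bᵀ * B))).trace := by
    rw [PF, PF, dPF, phi, phi, phi, phi]
    rw [trace_mul_comm (res ((B + B')ᵀ * (B + B')) - res (Bᵀ * B) + dR B B')]
    set S0 := res (Aᵀ * A)
    set S1 := res ((A + A')ᵀ * (A + A'))
    set T0 := res (Bᵀ * B)
    set T1 := res ((B + B')ᵀ * (B + B'))
    simp only [Matrix.mul_add, Matrix.add_mul, Matrix.mul_sub, Matrix.sub_mul, Matrix.mul_one,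
      Matrix.one_mul, trace_add, trace_sub]
    ring
  rw [e]
  rw [abs_le] at *
  constructor <;> linarith [r1.1, r1.2, r2.1, r2.2, r3.1, r3.2]

/-! ### the form used for boxes: `gramC μ F`, `gramR ν H` -/

/-- product functional of a pair of boxes with weights -/
noncomputable def PM (μ ν : ℝ) (F H : Matrix n n ℝ) : ℝ :=
  (phi (gramC μ F) * phi (gramR ν H)).trace

/-- linear part -/
noncomputable def dPM (μ ν : ℝ) (F H F' H' : Matrix n n ℝ) : ℝ :=
  dPF (Real.sqrt μ • F) (Real.sqrt ν • Hᵀ) (Real.sqrt μ • F') (Real.sqrt ν • H'ᵀ)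

theorem gramC_sqrt {μ : ℝ} (hμ : 0 ≤ μ) (F : Matrix n n ℝ) :
    (Real.sqrt μ • F)ᵀ * (Real.sqrt μ • F) = gramC μ F := by
  rw [gramC, transpose_smul, Matrix.smul_mul, Matrix.mul_smul, smul_smul, Real.mul_self_sqrt hμ]

theorem gramR_sqrt {ν : ℝ} (hν : 0 ≤ ν) (H : Matrix n n ℝ) :
    (Real.sqrt ν • Hᵀ)ᵀ * (Real.sqrt ν • Hᵀ) = gramR ν H := by
  rw [gramR, transpose_smul, transpose_transpose, Matrix.smul_mul, Matrix.mul_smul, smul_smul,
    Real.mul_self_sqrt hν]

theorem PM_eq {μ ν : ℝ} (hμ : 0 ≤ μ) (hν : 0 ≤ ν) (F H : Matrix n n ℝ) :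
    PM μ ν F H = PF (Real.sqrt μ • F) (Real.sqrt ν • Hᵀ) := by
  rw [PM, PF, gramC_sqrt hμ, gramR_sqrt hν]

theorem dPM_smul (μ ν c : ℝ) (F H F' H' : Matrix n n ℝ) :
    dPM μ ν F H (c • F') (c • H') = c * dPM μ ν F H F' H' := by
  rw [dPM, transpose_smul, smul_comm (Real.sqrt μ), smul_comm (Real.sqrt ν), dPF_smul, dPM]

theorem dPM_add (μ ν : ℝ) (F H F' H' F'' H'' : Matrix n n ℝ) :
    dPM μ ν F H (F' + F'') (H' + H'') = dPM μ ν F H F' H' + dPM μ ν F H F'' H'' := by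
  rw [dPM, transpose_add, smul_add, smul_add, dPF_add, dPM, dPM]

/-- two-sided tangent, weighted form -/
theorem PM_tangent {μ ν : ℝ} (hμ : 0 ≤ μ) (hν : 0 ≤ ν) (F H F' H' : Matrix n n ℝ) :
    |PM μ ν (F + F') (H + H') - PM μ ν F H - dPM μ ν F H F' H'|
      ≤ 8 * (μ * (F'ᵀ * F').trace + ν * (H' * H'ᵀ).trace) := by
  have h := PF_tangent (Real.sqrt μ • F) (Real.sqrt ν • Hᵀ) (Real.sqrt μ • F')
    (Real.sqrt ν • H'ᵀ)
  rw [PM_eq hμ hν, PM_eq hμ hν, dPM, smul_add, transpose_add, smul_add]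
  refine h.trans (le_of_eq ?_)
  rw [hs_smul, hs_smul, Real.sq_sqrt hμ, Real.sq_sqrt hν, hs_transpose, hs, hs_eq]

end Vale.Agent.P141.PL.H103
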