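import Vale.Agent.P141.PL.H588.Asm
import Vale.Agent.P141.PL.H588.Mov
import Vale.Agent.P141.PL.H978.Tang

/-!
# Block B4: the fixed-grid functional, final statements
-/

namespace Vale.Agent.P141.PL.H103

open Finset Vale.Agent.P075 Vale.Agent.P141.PL Vale.Agent.P141.PL.H588 Vale.Agent.P141.PL.H978

theorem BF_tang {N k : ℕ} (hk : k ≤ N) (R S T : ℤ) (c : ℕ → ℤ) :
    Tang (QQ N R S T) 1096 (BF N R S T c k) := by
  have h1 : Tang (QQ N R S T) 8 (fun f => Mk N R S T k (c k) f.1 f.2) := tang_Mk hk R S T (c k)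
  have h2 := (tang_en_pair hk hk R S T).smul 14
  have h3 : Tang (QQ N R S T) (∑ r ∈ range (N - k + 1), |(3 / 4 : ℝ) ^ r| * 2)
      (fun f => ∑ r ∈ range (N - k + 1),
        (3 / 4 : ℝ) ^ r * (en N R S (k + r) k f.1 + en N T S (k + r) k f.2)) :=
    Tang.sum fun r hr => (tang_en_pair (N := N) (a := k + r) (b := k)
      (by have := Finset.mem_range.1 hr; omega) hk R S T).smul ((3 / 4 : ℝ) ^ r)
  have h4 := ((h1.add h2).add (h3.smul 64)).smul 2
  have hg : ∑ r ∈ range (N - k + 1), |(3 / 4 : ℝ) ^ r| * 2 ≤ 8 := by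
    have e : ∀ r ∈ range (N - k + 1), |(3 / 4 : ℝ) ^ r| * 2 = (3 / 4 : ℝ) ^ r * 2 := fun r _ => by
      rw [abs_of_nonneg (by positivity)]
    rw [Finset.sum_congr rfl e, ← Finset.sum_mul, sum_range_succ]
    have := Vale.Agent.P141.PL.H103.geom_le (N - k)
    linarith
  have h5 : Tang (QQ N R S T) 1096 (fun f => 2 * (Mk N R S T k (c k) f.1 f.2
      + 14 * (en N R S k k f.1 + en N T S k k f.2)
      + 64 * ∑ r ∈ range (N - k + 1),
        (3 / 4 : ℝ) ^ r * (en N R S (k + r) k f.1 + en N T S (k + r) k f.2))) := by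
    refine h4.mono fun g => mul_le_mul_of_nonneg_right ?_ (QQ_nonneg ..)
    rw [abs_of_nonneg (by norm_num : (0 : ℝ) ≤ 2), abs_of_nonneg (by norm_num : (0 : ℝ) ≤ 14),
      abs_of_nonneg (by norm_num : (0 : ℝ) ≤ 64)]
    linarith
  have e : BF N R S T c k = fun f => 2 * (Mk N R S T k (c k) f.1 f.2
      + 14 * (en N R S k k f.1 + en N T S k k f.2)
      + 64 * ∑ r ∈ range (N - k + 1),
        (3 / 4 : ℝ) ^ r * (en N R S (k + r) k f.1 + en N T S (k + r) k f.2)) := by
    funext f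
    unfold BF Wt
    rw [← Finset.sum_add_distrib]
    congr 3
    exact Finset.sum_congr rfl fun r _ => by ring
  rw [e]
  exact h5

theorem BF_anti' {N k l : ℕ} (hkl : k ≤ l) (hl : l ≤ N) (R S T : ℤ) {c : ℕ → ℤ} (hc : Pl c)
    (f : (ℤ → ℤ → ℝ) × (ℤ → ℤ → ℝ)) : BF N R S T c l f ≤ BF N R S T c k f := by
  induction l, hkl using Nat.le_induction with
  | base => exact le_rfl
  | succ l hkl ih =>
    have h1 := BF_step (show l < N by omega) R S T hc f
    have h2 := H588.mnk_nonneg N R S T l (c (l + 1)) f.1 f.2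
    have h3 := ih (by omega)
    linarith

/-- the last clause of `StFun` -/
theorem BF_lip (N : ℕ) (R S T : ℤ) {c : ℕ → ℤ} (hc : Pl c) {k l : ℕ} (hkl : k ≤ l) (hl : l ≤ N)
    (f g : (ℤ → ℤ → ℝ) × (ℤ → ℤ → ℝ)) :
    Real.sqrt (BF N R S T c k (f + g) - BF N R S T c l (f + g))
      ≤ Real.sqrt (BF N R S T c k f - BF N R S T c l f)
        + Real.sqrt (2192 * (H588.sq N R S g.1 + H588.sq N T S g.2)) := by
  have h := sqrt_gap_pair (by norm_num) (BF_tang (hkl.trans hl) R S T c) (BF_tang hl R S T c)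
    (fun f => BF_anti' hkl hl R S T hc f) f g
  have e : (2 : ℝ) * 1096 = 2192 := by norm_num
  rwa [e] at h

/-- **B4, static form.** -/
theorem stFun : StFun 2192 := by
  intro N R S T c hc
  refine ⟨BF N R S T c, fun k f => BF_nonneg N R S T c k f, fun k f hk => BF_step hk R S T hc f,
    fun f => ?_, fun k l f g hkl hl => BF_lip N R S T hc hkl hl f g⟩
  refine (BF_zero_le N R S T c f).trans (mul_le_mul_of_nonneg_right (by norm_num)
    (add_nonneg (H588.sq_nonneg' ..) (H588.sq_nonneg' ..)))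

/-- **B4, moving form.** -/
theorem stMov : StMov 6576 := by
  have h := H588.mov_of_fun (by norm_num : (0 : ℝ) ≤ 2192) stFun
  norm_num at h
  exact h

end Vale.Agent.P141.PL.H103
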