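import Vale.Agent.P141.PL.H103.FD
import Vale.Agent.P141.PL.H588.Defs
import Vale.Agent.P075.R.Pt

/-!
# The plane shift of the fixed-grid functional
-/

namespace Vale.Agent.P141.PL.H103

open Finset Matrix Vale.Agent.P075 Vale.Agent.P141.PL Vale.Agent.P141.PL.H588

/-! ### Gram matrices of blocks -/

theorem Xg_psd (a b : ℕ) (F : ℤ → ℤ → ℝ) (n m : ℤ) : (Xg a b F n m).PosSemidef :=
  (psd_transpose_mul _).smul (by positivity)

theorem Xg_apply (a b : ℕ) (F : ℤ → ℤ → ℝ) (n m : ℤ) (j j' : Ix b) :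
    Xg a b F n m j j' = ((2 : ℝ) ^ a * 2 ^ b)⁻¹ *
      ∑ i : Ix a, F (2 ^ a * n + val a i) (2 ^ b * m + val b j)
        * F (2 ^ a * n + val a i) (2 ^ b * m + val b j') := by
  simp only [Xg, Matrix.smul_apply, smul_eq_mul, Matrix.mul_apply, Matrix.transpose_apply, smp]

theorem sum_Ix_succZ (a : ℕ) (f : ℕ → ℝ) : ∑ i : Ix (a + 1), f (val (a + 1) i)
    = ∑ i : Ix a, f (val a i) + ∑ i : Ix a, f (2 ^ a + val a i) := by
  have h1 : ∑ i : Ix (a + 1), f (val (a + 1) i)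
      = ∑ i : Ix a ⊕ Ix a, f (val (a + 1) i) := rfl
  rw [h1, Fintype.sum_sum_type]
  rfl

/-- row splitting -/
theorem Xg_row (a b : ℕ) (F : ℤ → ℤ → ℝ) (n m : ℤ) :
    Xg (a + 1) b F n m = (1 / 2 : ℝ) • (Xg a b F (2 * n) m + Xg a b F (2 * n + 1) m) := by
  ext j j'
  rw [Xg_apply, Matrix.smul_apply, Matrix.add_apply, Xg_apply, Xg_apply, smul_eq_mul]
  rw [sum_Ix_succZ a (fun v => F (2 ^ (a + 1) * n + v) (2 ^ b * m + val b j)
        * F (2 ^ (a + 1) * n + v) (2 ^ b * m + val b j'))]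
  have e1 : ∀ i : Ix a, (2 : ℤ) ^ (a + 1) * n + (val a i : ℕ) = 2 ^ a * (2 * n) + val a i := by
    intro i; ring
  have e2 : ∀ i : Ix a, (2 : ℤ) ^ (a + 1) * n + ((2 ^ a + val a i : ℕ) : ℤ)
      = 2 ^ a * (2 * n + 1) + val a i := by
    intro i; push_cast; ring
  simp only [e1, e2]
  rw [← mul_add, pow_succ]
  have : ((2 : ℝ) ^ a * 2 * 2 ^ b)⁻¹ = (1 / 2) * ((2 : ℝ) ^ a * 2 ^ b)⁻¹ := by
    rw [show (2 : ℝ) ^ a * 2 * 2 ^ b = 2 * ((2 : ℝ) ^ a * 2 ^ b) by ring, mul_inv]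
    norm_num
  rw [this, mul_assoc]

/-- row defect controls the distance of the children to the parent -/
theorem row_dist {n : Type*} [Fintype n] [DecidableEq n] {X₀ X₁ : Matrix n n ℝ}
    (h0 : X₀.PosSemidef) (h1 : X₁.PosSemidef) :
    ((phi X₀ - phi ((1 / 2 : ℝ) • (X₀ + X₁))) * (phi X₀ - phi ((1 / 2 : ℝ) • (X₀ + X₁)))).trace
      + ((phi X₁ - phi ((1 / 2 : ℝ) • (X₀ + X₁)))
        * (phi X₁ - phi ((1 / 2 : ℝ) • (X₀ + X₁)))).trace
      ≤ 4 * (GX X₀ + GX X₁ - 2 * GX ((1 / 2 : ℝ) • (X₀ + X₁))) := by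
  have q1 := Vale.Agent.P075.R.delt_sq_le h0 h1
  have q2 := Vale.Agent.P075.R.hdiff_sq_le h0 h1
  have q3 := Vale.Agent.P075.R.GX_row h0 h1
  have e : (phi X₀ - phi ((1 / 2 : ℝ) • (X₀ + X₁))) * (phi X₀ - phi ((1 / 2 : ℝ) • (X₀ + X₁)))
      + (phi X₁ - phi ((1 / 2 : ℝ) • (X₀ + X₁))) * (phi X₁ - phi ((1 / 2 : ℝ) • (X₀ + X₁)))
      = (2 : ℝ) • (hdiff X₀ X₁ * hdiff X₀ X₁) + (2 : ℝ) • (delt X₀ X₁ * delt X₀ X₁) := by
    have e1 : phi X₀ - phi ((1 / 2 : ℝ) • (X₀ + X₁)) = hdiff X₀ X₁ - delt X₀ X₁ := by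
      simp only [delt, hdiff]; module
    have e2 : phi X₁ - phi ((1 / 2 : ℝ) • (X₀ + X₁)) = -hdiff X₀ X₁ - delt X₀ X₁ := by
      simp only [delt, hdiff]; module
    rw [e1, e2]
    simp only [two_smul]
    noncomm_ring
  have e2 := congrArg trace e
  rw [trace_add, trace_add, trace_smul, trace_smul, smul_eq_mul, smul_eq_mul] at e2
  rw [e2]
  linarith

/-- `tr φ(X)² ≤ 4 GX X` -/
theorem phi_sq_le_GX {n : Type*} [Fintype n] [DecidableEq n] {X : Matrix n n ℝ}
    (hX : X.PosSemidef) : (phi X * phi X).trace ≤ 4 * GX X := by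
  have hY : ((1 / 2 : ℝ) • X).PosSemidef := hX.smul (by norm_num)
  set Y := (1 / 2 : ℝ) • X with hYd
  have e2Y : (2 : ℝ) • Y = X := by rw [hYd]; module
  -- tangent
  have h := det_mul_le_exp (res_psd hY) (posDef_one_add hX).posSemidef
  have e : (res Y * (1 + X)).trace - (Fintype.card n : ℝ) = (phi Y).trace := by
    have e1 : res Y * (1 + X) = res Y * (1 + Y) + res Y * Y := by
      rw [← e2Y, two_smul]; noncomm_ring
    rw [e1, trace_add, res_mul_one_add hY, res_mul_phi hY, trace_one]; ring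
  rw [e] at h
  have hpos1 : 0 < (res Y).det := (res_posDef hY).det_pos
  have hpos2 : 0 < (1 + X).det := det_pos_one_add hX
  have hlog := Real.log_le_log (mul_pos hpos1 hpos2) h
  rw [Real.log_exp, Real.log_mul hpos1.ne' hpos2.ne', log_det_res hY] at hlog
  have hld : Real.log (1 + X).det = ld X := rfl
  rw [hld] at hlog
  have hG := GX_nonneg hY
  have htr : X.trace = 2 * Y.trace := by rw [← e2Y, trace_smul, smul_eq_mul]
  -- `Y - φ Y = Y φ Y`
  have e3 : Y - phi Y = Y * phi Y := by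
    have := mul_res hY
    rw [phi, Matrix.mul_sub, Matrix.mul_one, this]
  have hd : (Y - phi Y).PosSemidef := by
    have e4 : Y - phi Y = Y * res Y * Y := by
      rw [e3, mul_res hY, Matrix.sub_mul, Matrix.one_mul, phi, Matrix.mul_sub, Matrix.mul_one,
        mul_res hY, res_mul hY]
    rw [e4]
    exact psd_conj_symm (res_psd hY) (psd_isSymm hY)
  have k1 : (phi Y * phi Y).trace ≤ (Y * phi Y).trace := trace_mul_le_left (phi_psd hY) hd
  have k2 : (Y * phi Y).trace = Y.trace - (phi Y).trace := by rw [← e3, trace_sub]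
  have h2 := phi_two hY
  rw [e2Y] at h2
  have k3 : (phi X * phi X).trace ≤ (((2 : ℝ) • phi Y) * phi X).trace :=
    trace_mul_le_left (phi_psd hX) h2
  have k4 : (phi Y * phi X).trace ≤ (phi Y * ((2 : ℝ) • phi Y)).trace :=
    trace_mul_le_right (phi_psd hY) h2
  rw [Matrix.smul_mul, trace_smul, smul_eq_mul] at k3
  rw [Matrix.mul_smul, trace_smul, smul_eq_mul] at k4
  have : GX X = X.trace - ld X := rfl
  have hG2 : GX Y = Y.trace - ld Y := rfl
  linarith

/-! ### sums over dyadic intervals -/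

theorem sum_iv_pair (l : ℕ) (R : ℤ) (g : ℤ → ℝ) :
    ∑ n ∈ iv (l + 1) R, g n = ∑ n ∈ iv l R, (g (2 * n) + g (2 * n + 1)) := by
  have h : ∀ n ∈ iv (l + 1) R, n / 2 ∈ iv l R := by
    intro n hn
    rw [mem_iv] at hn ⊢
    rw [← hn, ix, ix, pow_succ', Int.ediv_ediv_of_nonneg (by norm_num)]
  rw [← Finset.sum_fiberwise_of_maps_to h]
  refine Finset.sum_congr rfl fun n hn => ?_
  have e : (iv (l + 1) R).filter (fun x => x / 2 = n) = {2 * n, 2 * n + 1} := by
    ext x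
    simp only [Finset.mem_filter, Finset.mem_insert, Finset.mem_singleton]
    constructor
    · rintro ⟨_, hx⟩
      omega
    · intro hx
      have hx2 : x / 2 = n := by omega
      refine ⟨?_, hx2⟩
      rw [mem_iv] at hn ⊢
      rw [← hn, ← hx2, ix, ix, pow_succ', Int.ediv_ediv_of_nonneg (by norm_num)]
  rw [e, Finset.sum_pair (by omega)]

theorem sum_iv_div (l r : ℕ) (R : ℤ) (g : ℤ → ℝ) :
    ∑ n ∈ iv (l + r) R, g (n / 2 ^ r) = 2 ^ r * ∑ n ∈ iv l R, g n := by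
  induction r with
  | zero => simp
  | succ r ih =>
    rw [← add_assoc, sum_iv_pair]
    have e : ∀ n : ℤ, g ((2 * n) / 2 ^ (r + 1)) + g ((2 * n + 1) / 2 ^ (r + 1))
        = 2 * g (n / 2 ^ r) := by
      intro n
      rw [pow_succ', ← Int.ediv_ediv_of_nonneg (by norm_num), ← Int.ediv_ediv_of_nonneg (by norm_num)]
      have h1 : (2 * n) / 2 = n := by omega
      have h2 : (2 * n + 1) / 2 = n := by omega
      rw [h1, h2]; ring
    simp only [e]
    rw [← Finset.mul_sum, ih]; ring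

/-! ### the shift -/

/-- the plane sum of the middle interval `m` -/
noncomputable def al (N : ℕ) (R T : ℤ) (k : ℕ) (F H : ℤ → ℤ → ℝ) (m s : ℤ) : ℝ :=
  ∑ n ∈ iv (N - k) R, if s - n ∈ iv (N - k) T then
    (phi (Xg k k F n m) * phi (Xg k k H (s - n) m)).trace else 0

/-- the energy which pays for a shift -/
noncomputable def SE (N : ℕ) (R S : ℤ) (k : ℕ) (F : ℤ → ℤ → ℝ) : ℝ :=
  ∑ r ∈ range (N - k), (3 / 4) ^ r * (en N R S (k + r) k F - en N R S (k + r + 1) k F)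
    + (3 / 4) ^ (N - k) * en N R S N k F

/-- multiscale family -/
noncomputable def fR (N k : ℕ) (R : ℤ) (F : ℤ → ℤ → ℝ) (m : ℤ) (r : ℕ) (n : ℤ) :
    Matrix (Ix k) (Ix k) ℝ :=
  if n ∈ iv (N - k) R then phi (Xg (k + r) k F (n / 2 ^ r) m) else 0

theorem fR_symm (N k : ℕ) (R : ℤ) (F : ℤ → ℤ → ℝ) (m : ℤ) (r : ℕ) (n : ℤ) :
    (fR N k R F m r n)ᵀ = fR N k R F m r n := by
  unfold fR
  split_ifs
  · exact phi_symm (Xg_psd ..)
  · exact transpose_zero

theorem fR_fs (N k : ℕ) (R : ℤ) (F : ℤ → ℤ → ℝ) (m : ℤ) (r : ℕ) : FSM (fR N k R F m r) :=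
  ⟨iv (N - k) R, fun n hn => by unfold fR; rw [if_neg hn]⟩

theorem fR_blk (N k : ℕ) (R : ℤ) (F : ℤ → ℤ → ℝ) (m : ℤ) {r : ℕ} (hr : r ≤ N - k) (n : ℤ) :
    fR N k R F m r n = fR N k R F m r (2 ^ r * (n / 2 ^ r)) := by
  have h1 : (2 ^ r * (n / 2 ^ r)) / 2 ^ r = n / 2 ^ r :=
    Int.mul_ediv_cancel_left _ (by positivity)
  have h2 : (2 ^ r * (n / 2 ^ r)) ∈ iv (N - k) R ↔ n ∈ iv (N - k) R := by
    rw [mem_iv, mem_iv, ix, ix]
    obtain ⟨l, hl⟩ := Nat.exists_eq_add_of_le hr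
    rw [hl, pow_add, ← Int.ediv_ediv_of_nonneg (by positivity),
      ← Int.ediv_ediv_of_nonneg (by positivity), h1]
  unfold fR
  rw [h1]
  simp only [h2]

theorem cv_eq_al (N : ℕ) (R T : ℤ) (k : ℕ) (F H : ℤ → ℤ → ℝ) (m s : ℤ) :
    cv (fR N k R F m 0) (fR N k T H m 0) s = al N R T k F H m s := by
  unfold cv al
  rw [tsum_eq_sum (s := iv (N - k) R)]
  · refine Finset.sum_congr rfl fun n hn => ?_
    unfold fR
    rw [if_pos hn]
    simp only [pow_zero, Int.ediv_one, add_zero]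
    split_ifs
    · rfl
    · rw [Matrix.mul_zero, trace_zero]
  · intro n hn
    unfold fR
    rw [if_neg hn, Matrix.zero_mul, trace_zero]

/-- one level of the multiscale energy -/
theorem level_le (N k : ℕ) (R : ℤ) (F : ℤ → ℤ → ℝ) (m : ℤ) {r : ℕ} (hr : k + r < N) :
    ∑' n, ((fR N k R F m r n - fR N k R F m (r + 1) n)
        * (fR N k R F m r n - fR N k R F m (r + 1) n)).trace
      ≤ 4 * (2 ^ r * ∑ n ∈ iv (N - (k + r)) R, GX (Xg (k + r) k F n m)
        - 2 ^ (r + 1) * ∑ n ∈ iv (N - (k + r + 1)) R, GX (Xg (k + r + 1) k F n m)) := by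
  have h1 : ∑' n, ((fR N k R F m r n - fR N k R F m (r + 1) n)
        * (fR N k R F m r n - fR N k R F m (r + 1) n)).trace
      = ∑ n ∈ iv (N - k) R,
        ((phi (Xg (k + r) k F (n / 2 ^ r) m) - phi (Xg (k + r + 1) k F (n / 2 ^ r / 2) m))
        * (phi (Xg (k + r) k F (n / 2 ^ r) m)
          - phi (Xg (k + r + 1) k F (n / 2 ^ r / 2) m))).trace := by
    rw [tsum_eq_sum (s := iv (N - k) R)]
    · refine Finset.sum_congr rfl fun n hn => ?_
      unfold fR
      rw [if_pos hn, if_pos hn]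
      have : n / 2 ^ (r + 1) = n / 2 ^ r / 2 := by
        rw [pow_succ, ← Int.ediv_ediv_of_nonneg (by positivity)]
      rw [this]
      rfl
    · intro n hn
      unfold fR
      rw [if_neg hn, if_neg hn, sub_zero, Matrix.mul_zero, trace_zero]
  obtain ⟨l, hl⟩ : ∃ l, N - k = (l + 1) + r := ⟨N - k - r - 1, by omega⟩
  have hl1 : N - (k + r) = l + 1 := by omega
  have hl2 : N - (k + r + 1) = l := by omega
  rw [h1, hl, hl1, hl2]
  rw [sum_iv_div (l + 1) r R (fun n =>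
      ((phi (Xg (k + r) k F n m) - phi (Xg (k + r + 1) k F (n / 2) m))
        * (phi (Xg (k + r) k F n m) - phi (Xg (k + r + 1) k F (n / 2) m))).trace)]
  rw [sum_iv_pair, sum_iv_pair l R (fun n => GX (Xg (k + r) k F n m))]
  have h2 : ∀ n : ℤ, 2 * n / 2 = n := fun n => by omega
  have h3 : ∀ n : ℤ, (2 * n + 1) / 2 = n := fun n => by omega
  simp only [h2, h3]
  have key : ∑ n ∈ iv l R,
      (((phi (Xg (k + r) k F (2 * n) m) - phi (Xg (k + r + 1) k F n m))
        * (phi (Xg (k + r) k F (2 * n) m) - phi (Xg (k + r + 1) k F n m))).trace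
      + ((phi (Xg (k + r) k F (2 * n + 1) m) - phi (Xg (k + r + 1) k F n m))
        * (phi (Xg (k + r) k F (2 * n + 1) m) - phi (Xg (k + r + 1) k F n m))).trace)
      ≤ ∑ n ∈ iv l R, (4 * ((GX (Xg (k + r) k F (2 * n) m) + GX (Xg (k + r) k F (2 * n + 1) m))
        - 2 * GX (Xg (k + r + 1) k F n m))) := by
    refine Finset.sum_le_sum fun n _ => ?_
    have := row_dist (Xg_psd (k + r) k F (2 * n) m) (Xg_psd (k + r) k F (2 * n + 1) m)
    rw [← Xg_row] at this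
    exact this
  rw [← Finset.mul_sum, Finset.sum_sub_distrib, ← Finset.mul_sum] at key
  have hp : (0 : ℝ) ≤ 2 ^ r := by positivity
  refine (mul_le_mul_of_nonneg_left key hp).trans (le_of_eq ?_)
  ring

/-- the last level -/
theorem last_le (N k : ℕ) (R : ℤ) (F : ℤ → ℤ → ℝ) (m : ℤ) (hk : k ≤ N) :
    ∑' n, (fR N k R F m (N - k) n * fR N k R F m (N - k) n).trace
      ≤ 4 * (2 ^ (N - k) * ∑ n ∈ iv 0 R, GX (Xg N k F n m)) := by
  have h0 : k + (N - k) = N := by omega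
  have h1 : ∑' n, (fR N k R F m (N - k) n * fR N k R F m (N - k) n).trace
      = ∑ n ∈ iv (0 + (N - k)) R, (fun n => (phi (Xg N k F n m) * phi (Xg N k F n m)).trace)
          (n / 2 ^ (N - k)) := by
    rw [zero_add, tsum_eq_sum (s := iv (N - k) R)]
    · refine Finset.sum_congr rfl fun n hn => ?_
      unfold fR
      rw [if_pos hn, h0]
    · intro n hn
      unfold fR
      rw [if_neg hn, Matrix.mul_zero, trace_zero]
  rw [h1, sum_iv_div 0 (N - k) R (fun n => (phi (Xg N k F n m) * phi (Xg N k F n m)).trace)]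
  have hp : (0 : ℝ) ≤ 2 ^ (N - k) := by positivity
  have : ∑ n ∈ iv 0 R, (phi (Xg N k F n m) * phi (Xg N k F n m)).trace
      ≤ ∑ n ∈ iv 0 R, 4 * GX (Xg N k F n m) :=
    Finset.sum_le_sum fun n _ => phi_sq_le_GX (Xg_psd ..)
  rw [← Finset.mul_sum] at this
  refine (mul_le_mul_of_nonneg_left this hp).trans (le_of_eq ?_)
  ring

theorem en_eq (N : ℕ) (R S : ℤ) (a b : ℕ) (F : ℤ → ℤ → ℝ) :
    en N R S a b F = ∑ m ∈ iv (N - b) S, 2 ^ a * 2 ^ b * ∑ n ∈ iv (N - a) R, GX (Xg a b F n m) := by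
  rw [en, Finset.mul_sum]

theorem MM_sum_le (N k : ℕ) (R S : ℤ) (F : ℤ → ℤ → ℝ) (hk : k ≤ N) :
    4 ^ k * ∑ m ∈ iv (N - k) S, MM (N - k) (fR N k R F m) ≤ 4 * SE N R S k F := by
  have h1 : ∀ m, MM (N - k) (fR N k R F m) ≤
      ∑ r ∈ range (N - k), (3 / 4) ^ r *
        (4 * (2 ^ r * ∑ n ∈ iv (N - (k + r)) R, GX (Xg (k + r) k F n m)
        - 2 ^ (r + 1) * ∑ n ∈ iv (N - (k + r + 1)) R, GX (Xg (k + r + 1) k F n m)))
      + (3 / 4) ^ (N - k) * (4 * (2 ^ (N - k) * ∑ n ∈ iv 0 R, GX (Xg N k F n m))) := by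
    intro m
    unfold MM
    refine add_le_add (Finset.sum_le_sum fun r hr => ?_) ?_
    · exact mul_le_mul_of_nonneg_left (level_le N k R F m (by
        have := Finset.mem_range.1 hr; omega)) (by positivity)
    · exact mul_le_mul_of_nonneg_left (last_le N k R F m hk) (by positivity)
  have hp : (0 : ℝ) ≤ 4 ^ k := by positivity
  have e4 : (4 : ℝ) ^ k = 2 ^ k * 2 ^ k := by rw [← mul_pow]; norm_num
  have eA : ∀ r : ℕ, 4 ^ k * ∑ m ∈ iv (N - k) S,
      (2 ^ r * ∑ n ∈ iv (N - (k + r)) R, GX (Xg (k + r) k F n m)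
        - 2 ^ (r + 1) * ∑ n ∈ iv (N - (k + r + 1)) R, GX (Xg (k + r + 1) k F n m))
      = en N R S (k + r) k F - en N R S (k + r + 1) k F := by
    intro r
    rw [en_eq, en_eq, ← Finset.sum_sub_distrib, Finset.mul_sum]
    refine Finset.sum_congr rfl fun m _ => ?_
    rw [e4, pow_succ, pow_succ, pow_add]
    ring
  have eB : 4 ^ k * ∑ m ∈ iv (N - k) S, (2 ^ (N - k) * ∑ n ∈ iv 0 R, GX (Xg N k F n m))
      = en N R S N k F := by
    rw [en_eq, Finset.mul_sum, Nat.sub_self]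
    refine Finset.sum_congr rfl fun m _ => ?_
    have : (2 : ℝ) ^ N = 2 ^ k * 2 ^ (N - k) := by rw [← pow_add]; congr 1; omega
    rw [e4, this]
    ring
  refine (mul_le_mul_of_nonneg_left
    (Finset.sum_le_sum fun m (_ : m ∈ iv (N - k) S) => h1 m) hp).trans (le_of_eq ?_)
  have c1 : 4 ^ k * ∑ m ∈ iv (N - k) S, ∑ r ∈ range (N - k), (3 / 4 : ℝ) ^ r *
        (4 * (2 ^ r * ∑ n ∈ iv (N - (k + r)) R, GX (Xg (k + r) k F n m)
        - 2 ^ (r + 1) * ∑ n ∈ iv (N - (k + r + 1)) R, GX (Xg (k + r + 1) k F n m)))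
      = 4 * ∑ r ∈ range (N - k), (3 / 4) ^ r *
        (en N R S (k + r) k F - en N R S (k + r + 1) k F) := by
    rw [Finset.sum_comm, Finset.mul_sum, Finset.mul_sum]
    refine Finset.sum_congr rfl fun r _ => ?_
    rw [← eA r, ← Finset.mul_sum, ← Finset.mul_sum]
    ring
  have c2 : 4 ^ k * ∑ m ∈ iv (N - k) S, (3 / 4 : ℝ) ^ (N - k) *
        (4 * (2 ^ (N - k) * ∑ n ∈ iv 0 R, GX (Xg N k F n m)))
      = 4 * ((3 / 4) ^ (N - k) * en N R S N k F) := by
    rw [← eB, ← Finset.mul_sum, ← Finset.mul_sum]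
    ring
  rw [Finset.sum_add_distrib, mul_add, SE, mul_add, c1, c2]

/-- **Shift by one plane.** -/
theorem shift (N : ℕ) (R S T : ℤ) (k : ℕ) (hk : k ≤ N) (F H : ℤ → ℤ → ℝ) (t : ℤ → ℤ) :
    4 ^ k * ∑ m ∈ iv (N - k) S, |al N R T k F H m (t m + 1) - al N R T k F H m (t m)|
      ≤ 16 * (SE N R S k F + SE N T S k H) := by
  have h1 : ∀ m, |al N R T k F H m (t m + 1) - al N R T k F H m (t m)|
      ≤ 4 * (MM (N - k) (fR N k R F m) + MM (N - k) (fR N k T H m)) := by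
    intro m
    rw [← cv_eq_al, ← cv_eq_al]
    exact first_diff_mat (N - k) (fun r hr n => fR_blk N k R F m hr n)
      (fun r hr n => fR_blk N k T H m hr n) (fun r _ n => fR_symm ..) (fun r _ n => fR_symm ..)
      (fun r _ => fR_fs ..) (fun r _ => fR_fs ..) (t m)
  have hp : (0 : ℝ) ≤ 4 ^ k := by positivity
  have h2 := mul_le_mul_of_nonneg_left
    (Finset.sum_le_sum fun m (_ : m ∈ iv (N - k) S) => h1 m) hp
  refine h2.trans ?_
  rw [← Finset.mul_sum, Finset.sum_add_distrib]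
  have k1 := MM_sum_le N k R S F hk
  have k2 := MM_sum_le N k T S H hk
  nlinarith

theorem SE_nonneg (N : ℕ) (R S : ℤ) (k : ℕ) (hk : k ≤ N) (F : ℤ → ℤ → ℝ) : 0 ≤ SE N R S k F := by
  have h := MM_sum_le N k R S F hk
  have h2 : 0 ≤ 4 ^ k * ∑ m ∈ iv (N - k) S, MM (N - k) (fR N k R F m) := by
    refine mul_nonneg (by positivity) (Finset.sum_nonneg fun m _ => ?_)
    unfold MM
    refine add_nonneg (Finset.sum_nonneg fun r _ => mul_nonneg (by positivity)
      (tsum_nonneg fun n => trace_sq_nonneg ?_)) (mul_nonneg (by positivity)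
      (tsum_nonneg fun n => trace_sq_nonneg ?_))
    · rw [transpose_sub, fR_symm, fR_symm]
    · exact fR_symm ..
  linarith

/-- **Shift by a bounded number of planes.** -/
theorem shift_nat (N : ℕ) (R S T : ℤ) (k : ℕ) (hk : k ≤ N) (F H : ℤ → ℤ → ℝ) (t : ℤ → ℤ)
    (d : ℕ) :
    4 ^ k * ∑ m ∈ iv (N - k) S, |al N R T k F H m (t m + d) - al N R T k F H m (t m)|
      ≤ 16 * d * (SE N R S k F + SE N T S k H) := by
  induction d with
  | zero => simp
  | succ d ih =>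
    have h := shift N R S T k hk F H (fun m => t m + d)
    have h2 : ∀ m, |al N R T k F H m (t m + ((d + 1 : ℕ) : ℤ)) - al N R T k F H m (t m)|
        ≤ |al N R T k F H m (t m + d + 1) - al N R T k F H m (t m + d)|
          + |al N R T k F H m (t m + d) - al N R T k F H m (t m)| := by
      intro m
      have e : t m + ((d + 1 : ℕ) : ℤ) = t m + d + 1 := by push_cast; ring
      rw [e]
      exact abs_sub_le _ _ _
    have hp : (0 : ℝ) ≤ 4 ^ k := by positivity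
    have h3 := mul_le_mul_of_nonneg_left
      (Finset.sum_le_sum fun m (_ : m ∈ iv (N - k) S) => h2 m) hp
    rw [Finset.sum_add_distrib, mul_add] at h3
    push_cast
    push_cast at h3
    linarith

theorem abs_sub_le_range (g : ℕ → ℝ) (L i j : ℕ) (hi : i ≤ L) (hj : j ≤ L) :
    |g i - g j| ≤ ∑ l ∈ range L, |g (l + 1) - g l| := by
  wlog h : i ≤ j generalizing i j
  · rw [abs_sub_comm]
    exact this j i hj hi (le_of_not_ge h)
  have h1 := dist_le_Ico_sum_dist g h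
  rw [Real.dist_eq] at h1
  refine h1.trans ?_
  have h2 : ∀ l, dist (g l) (g (l + 1)) = |g (l + 1) - g l| := fun l => by
    rw [Real.dist_eq, abs_sub_comm]
  simp only [h2]
  refine Finset.sum_le_sum_of_subset_of_nonneg (fun x hx => ?_) fun _ _ _ => abs_nonneg _
  rw [Finset.mem_Ico] at hx
  exact Finset.mem_range.2 (by omega)

/-- **Shift**, general form: `|t' m - t m| ≤ D`. -/
theorem shift_abs (N : ℕ) (R S T : ℤ) (k : ℕ) (hk : k ≤ N) (F H : ℤ → ℤ → ℝ) (t t' : ℤ → ℤ)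
    (D : ℕ) (hD : ∀ m, |t' m - t m| ≤ D) :
    4 ^ k * ∑ m ∈ iv (N - k) S, |al N R T k F H m (t' m) - al N R T k F H m (t m)|
      ≤ 32 * D * (SE N R S k F + SE N T S k H) := by
  have h1 : ∀ m, |al N R T k F H m (t' m) - al N R T k F H m (t m)|
      ≤ ∑ l ∈ range (2 * D), |al N R T k F H m ((t m - D + l) + 1)
        - al N R T k F H m (t m - D + l)| := by
    intro m
    have hm := abs_le.1 (hD m)
    obtain ⟨i, hi⟩ : ∃ i : ℕ, t' m = t m - D + i := ⟨(t' m - t m + D).toNat, by omega⟩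
    have h := abs_sub_le_range (fun l : ℕ => al N R T k F H m (t m - D + l)) (2 * D) i D
      (by omega) (by omega)
    have e1 : t m - D + (D : ℕ) = t m := by omega
    have e2 : ∀ l : ℕ, t m - D + ((l + 1 : ℕ) : ℤ) = t m - D + l + 1 := fun l => by
      push_cast; ring
    simp only [e1, e2] at h
    rw [hi]
    exact h
  have hp : (0 : ℝ) ≤ 4 ^ k := by positivity
  refine (mul_le_mul_of_nonneg_left
    (Finset.sum_le_sum fun m (_ : m ∈ iv (N - k) S) => h1 m) hp).trans ?_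
  rw [Finset.sum_comm, Finset.mul_sum]
  refine (Finset.sum_le_sum fun (l : ℕ) _ => shift N R S T k hk F H
    (fun m => t m - D + l)).trans (le_of_eq ?_)
  rw [Finset.sum_const, Finset.card_range, nsmul_eq_mul]
  push_cast
  ring

end Vale.Agent.P141.PL.H103
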